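import Vale.Agent.P359.MathlibUsed

/-!
Statement-level definitions for P359 (spherical Laughlin Hamiltonian).

`U_Q` has the orthonormal basis `e_a = sqrt (binom Q a) u^(Q - a) v^a`, `a = 0, …, Q`. A vector of
`U_Q ⊗ ⋯ ⊗ U_Q` is given by its coordinates in the basis `e_{x 0} ⊗ ⋯ ⊗ e_{x (N-1)}`.
-/

namespace Vale.Agent.P359

open scoped Kronecker
open Matrix

/-- inner product of coordinate vectors, conjugate-linear in the first argument -/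
noncomputable def braket {ι : Type} [Fintype ι] (φ ψ : ι → ℂ) : ℂ := ∑ i, star (φ i) * ψ i

/-- antisymmetric tensors: the fermionic space -/
def IsFermionic {N Q : ℕ} (Ψ : (Fin N → Fin (Q + 1)) → ℂ) : Prop :=
  ∀ (σ : Equiv.Perm (Fin N)) (x : Fin N → Fin (Q + 1)),
    Ψ (x ∘ σ) = ((Equiv.Perm.sign σ : ℤ) : ℂ) * Ψ x

/-- spin operator `J_z` on `U_Q`: `J_z e_a = (Q/2 - a) e_a` -/
noncomputable def spinZ (Q : ℕ) : Matrix (Fin (Q + 1)) (Fin (Q + 1)) ℂ :=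
  Matrix.diagonal fun a => (Q : ℂ) / 2 - ((a : ℕ) : ℂ)

/-- raising operator `J_+` on `U_Q`: `J_+ e_b = sqrt (b (Q - b + 1)) e_{b-1}` -/
noncomputable def spinPlus (Q : ℕ) : Matrix (Fin (Q + 1)) (Fin (Q + 1)) ℂ :=
  Matrix.of fun a b =>
    if (b : ℕ) = (a : ℕ) + 1 then
      ((Real.sqrt (((b : ℕ) : ℝ) * ((Q : ℝ) - ((b : ℕ) : ℝ) + 1)) : ℝ) : ℂ)
    else 0

/-- `A ⊗ 1 + 1 ⊗ A` on `U_Q ⊗ U_Q` -/
noncomputable def onPair {Q : ℕ} (A : Matrix (Fin (Q + 1)) (Fin (Q + 1)) ℂ) :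
    Matrix (Fin (Q + 1) × Fin (Q + 1)) (Fin (Q + 1) × Fin (Q + 1)) ℂ :=
  A ⊗ₖ (1 : Matrix (Fin (Q + 1)) (Fin (Q + 1)) ℂ) + (1 : Matrix (Fin (Q + 1)) (Fin (Q + 1)) ℂ) ⊗ₖ A

/-- the total spin squared `J_z^2 + (J_+ J_- + J_- J_+) / 2` on `U_Q ⊗ U_Q`, `J_- = J_+^*` -/
noncomputable def casimir (Q : ℕ) :
    Matrix (Fin (Q + 1) × Fin (Q + 1)) (Fin (Q + 1) × Fin (Q + 1)) ℂ :=
  onPair (spinZ Q) * onPair (spinZ Q)
    + (1 / 2 : ℂ) • (onPair (spinPlus Q) * onPair (spinPlus Q)ᴴ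
      + onPair (spinPlus Q)ᴴ * onPair (spinPlus Q))

/-- `P` is the orthogonal projection of `U_Q ⊗ U_Q` onto the component of total spin `J = Q - 1`:
`P^2 = P = P^*`, and the range of `P` is the eigenspace of the total spin squared for
`J (J + 1) = (Q - 1) Q` -/
def IsPairProj (Q : ℕ)
    (P : Matrix (Fin (Q + 1) × Fin (Q + 1)) (Fin (Q + 1) × Fin (Q + 1)) ℂ) : Prop :=
  P * P = P ∧ Pᴴ = P ∧
    ∀ ψ : Fin (Q + 1) × Fin (Q + 1) → ℂ, P *ᵥ ψ = ψ ↔ casimir Q *ᵥ ψ = (((Q : ℂ) - 1) * Q) • ψ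

/-- `∑_{i<j} P_{ij}`, the matrix `P` acting on the tensor factors `i` and `j` -/
noncomputable def pairSum {N Q : ℕ}
    (P : Matrix (Fin (Q + 1) × Fin (Q + 1)) (Fin (Q + 1) × Fin (Q + 1)) ℂ)
    (Ψ : (Fin N → Fin (Q + 1)) → ℂ) : (Fin N → Fin (Q + 1)) → ℂ := fun x =>
  ∑ i, ∑ j ∈ Finset.Ioi i, ∑ a, ∑ b,
    P (x i, x j) (a, b) * Ψ (Function.update (Function.update x i a) j b)

/-- `∏_{i<j} (u_i v_j - u_j v_i)^3`, with `u_i = X (i, false)` and `v_i = X (i, true)` -/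
noncomputable def laughlinPolynomial (N : ℕ) : MvPolynomial (Fin N × Bool) ℂ :=
  ∏ i : Fin N, ∏ j ∈ Finset.Ioi i,
    (MvPolynomial.X (i, false) * MvPolynomial.X (j, true)
      - MvPolynomial.X (j, false) * MvPolynomial.X (i, true)) ^ 3

/-- the exponent of the monomial `∏_i u_i^(Q - x_i) v_i^(x_i)` -/
noncomputable def spinorExp {N Q : ℕ} (x : Fin N → Fin (Q + 1)) : Fin N × Bool →₀ ℕ :=
  Finsupp.equivFunOnFinite.symm fun p => if p.2 then (x p.1 : ℕ) else Q - (x p.1 : ℕ)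

/-- the Laughlin vector at flux `Q = 3 (N - 1)`: the polynomial
`∑_x c_x ∏_i u_i^(Q - x_i) v_i^(x_i)` has the coordinates `c_x / ∏_i sqrt (binom Q (x_i))` -/
noncomputable def laughlinVec (N : ℕ) : (Fin N → Fin (3 * (N - 1) + 1)) → ℂ := fun x =>
  (laughlinPolynomial N).coeff (spinorExp x)
    / ∏ i : Fin N, ((Real.sqrt (Nat.choose (3 * (N - 1)) (x i : ℕ)) : ℝ) : ℂ)

/-- `(I - P_L) Ψ`: the component of `Ψ` orthogonal to the Laughlin vector -/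
noncomputable def perpPart {N : ℕ} (Ψ : (Fin N → Fin (3 * (N - 1) + 1)) → ℂ) :
    (Fin N → Fin (3 * (N - 1) + 1)) → ℂ :=
  Ψ - (braket (laughlinVec N) Ψ / braket (laughlinVec N) (laughlinVec N)) • laughlinVec N

end Vale.Agent.P359
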