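import Mathlib.Algebra.AffineMonoid.UniqueSums
import Mathlib.Algebra.GroupWithZero.Action.Pointwise.Finset
import Mathlib.Algebra.MvPolynomial.Funext
import Mathlib.Algebra.Order.Archimedean.Real.Hom
import Mathlib.Algebra.Order.Field.GeomSum
import Mathlib.Algebra.Ring.Action.Pointwise.Finset
import Mathlib.Algebra.Ring.IsFormallyReal
import Mathlib.Analysis.CStarAlgebra.Module.Constructions
import Mathlib.Analysis.InnerProductSpace.Trace
import Mathlib.Analysis.SpecialFunctions.Choose
import Mathlib.Data.Finset.MulAntidiagonal
import Mathlib.Data.Finset.Slice
import Mathlib.Data.Int.Star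
import Mathlib.RingTheory.MvPolynomial.IrreducibleQuadratic
import Mathlib.RingTheory.PicardGroup
import Mathlib.RingTheory.SimpleRing.Principal
import Mathlib.Tactic

/-! The part of Mathlib that the development of this folder uses. -/
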